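import Crest.Agent.N233.Wu.Syl
import Crest.Agent.N233.Dv.Top
import Crest.Agent.N255.Mo.Col

/-!
# Row 233 (helper62): the reductions of `S0360`, `S0361` for the Davis construction
-/

set_option autoImplicit false
open Set Filter Topology

noncomputable section

namespace Crest.Agent.N233.Wu

open Crest.Agent.N255.Uc Crest.Agent.N255.Ra Dv

theorem wc_of_contr (X : Type) [TopologicalSpace X] [ContractibleSpace X] : N222.C.WC X :=
  N255.Mo.wc_of_null fun C _ =>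
    (id_nullhomotopic X).comp_left (⟨Subtype.val, continuous_subtype_val⟩ : C(C, X))

variable {S : Type} {Γ : SimpleGraph S} {F : Type} [Group F]

/-- the universal cover of the Davis manifold -/
theorem gm_fill {ρ : F →* (Γ ≃g Γ)} {T : Type} [TopologicalSpace T] [MulAction F T] [Countable S]
    [Countable F] (Φ : FillG ρ T) (c : Cmb F T) (G : Subgroup (G0 ρ)) [G.FiniteIndex] (hG : Tf G) :
    GM 4 G Φ.Mt := by
  have := Φ.contractible c
  refine ⟨inferInstance, ⟨inferInstance⟩, inferInstance, Φ.free_G hG, prp_of, ?_, inferInstance,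
    wc_of_contr _, ChartedSpace.secondCountable_of_sigmaCompact E4 _, disj_of (Φ.free_G hG)⟩
  obtain ⟨K, hK, h⟩ := Φ.cocompact
  have : Finite (G0 ρ ⧸ G) := Subgroup.finite_quotient_of_finiteIndex
  refine ⟨_, isCompact_iUnion fun q : G0 ρ ⧸ G => hK.image (continuous_const_smul q.out⁻¹),
    fun m => ?_⟩
  obtain ⟨g, hg⟩ := h m
  obtain ⟨k, hk⟩ := QuotientGroup.mk_out_eq_mul G g
  refine ⟨k⁻¹, mem_iUnion.2 ⟨g, _, hg, ?_⟩⟩
  change _ • g • m = (k⁻¹ : G).1 • m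
  rw [hk, smul_smul]
  simp

variable (ρ : F →* (Γ ≃g Γ)) (χ : F →* Multiplicative ℤ)

/-- the action of `χ⁻¹(nℤ)` -/
abbrev rn (n : ℤ) : Gn χ n →* (Γ ≃g Γ) := ρ.comp (Gn χ n).subtype

/-- the inclusion into the big group -/
def io (n : ℤ) : G0 (rn ρ χ n) →* G0 ρ := MonoidHom.mk' (fun g => ⟨g.left, g.right⟩) fun _ _ => rfl

theorem io_inj (n : ℤ) : Function.Injective (io ρ χ n) := fun _ _ h =>
  SemidirectProduct.ext (congrArg (·.left) h) (Subtype.ext (congrArg (·.right) h))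

/-- the character of the big group -/
def χ0 : G0 ρ →* Multiplicative ℤ := χ.comp SemidirectProduct.rightHom

theorem io_rng (n : ℤ) (e : G0 ρ) : e ∈ (io ρ χ n).range ↔ n ∣ (χ0 ρ χ e).toAdd :=
  ⟨by rintro ⟨g, rfl⟩; exact g.right.2, fun h => ⟨⟨e.left, ⟨e.right, h⟩⟩, rfl⟩⟩

/-- invariant subgroups of the Coxeter group -/
def Inv (N : Subgroup (W Γ)) : Prop := ∀ f, ∀ w ∈ N, aut (ρ f) w ∈ N

variable {ρ} in
/-- `N ⋊ F` -/
def Sd {N : Subgroup (W Γ)} (h : Inv ρ N) : Subgroup (G0 ρ) where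
  carrier := {g | g.left ∈ N}
  one_mem' := N.one_mem
  mul_mem' := fun ha hb => N.mul_mem ha (h _ _ hb)
  inv_mem' := fun ha => h _ _ (N.inv_mem ha)

variable {ρ} in
/-- `N ⋊ χ⁻¹(nℤ)` -/
def Gs {N : Subgroup (W Γ)} (h : Inv ρ N) (n : ℤ) : Subgroup (G0 (rn ρ χ n)) :=
  (Sd h).comap (io ρ χ n)

variable {ρ χ}

theorem mem_Gs {N : Subgroup (W Γ)} {h : Inv ρ N} {n : ℤ} {g : G0 (rn ρ χ n)} :
    g ∈ Gs χ h n ↔ g.left ∈ N := Iff.rfl

theorem inr_mem_Gs {N : Subgroup (W Γ)} (h : Inv ρ N) (n : ℤ) (f : Gn χ n) :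
    SemidirectProduct.inr f ∈ Gs χ h n := N.one_mem

theorem Gs_fi {N : Subgroup (W Γ)} [N.FiniteIndex] (h : Inv ρ N) (n : ℤ) : (Gs χ h n).FiniteIndex := by
  have : Finite (W Γ ⧸ N) := Subgroup.finite_quotient_of_finiteIndex
  have : Finite (G0 (rn ρ χ n) ⧸ Gs χ h n) := by
    refine Finite.of_surjective (fun q : W Γ ⧸ N =>
      (QuotientGroup.mk (SemidirectProduct.inl q.out) : G0 (rn ρ χ n) ⧸ Gs χ h n)) fun q => ?_
    obtain ⟨g, rfl⟩ := QuotientGroup.mk_surjective q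
    refine ⟨g.left, QuotientGroup.eq.2 (mem_Gs.2 ?_)⟩
    obtain ⟨k, hk⟩ := QuotientGroup.mk_out_eq_mul N g.left
    simp [hk]
  exact Subgroup.finiteIndex_of_finite_quotient

variable (ρ χ) in
/-- conjugation by an element of `F` -/
def th (n : ℤ) (τ : F) : G0 (rn ρ χ n) ≃* G0 (rn ρ χ n) where
  toFun g := ⟨aut (ρ τ) g.left, cj χ n τ g.right⟩
  invFun g := ⟨(aut (ρ τ)).symm g.left, (cj χ n τ).symm g.right⟩
  left_inv g := by ext <;> simp
  right_inv g := by ext <;> simp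
  map_mul' a b := by
    refine SemidirectProduct.ext ?_ (map_mul (cj χ n τ) _ _)
    show autHom ρ τ (a.left * autHom ρ a.right b.left) =
      autHom ρ τ a.left * autHom ρ (τ * a.right * τ⁻¹) (autHom ρ τ b.left)
    rw [map_mul, ← MulAut.mul_apply, ← MulAut.mul_apply, ← map_mul, ← map_mul, inv_mul_cancel_right]

theorem io_th (n : ℤ) (τ : F) (g : G0 (rn ρ χ n)) :
    io ρ χ n (th ρ χ n τ g) = .inr τ * io ρ χ n g * (SemidirectProduct.inr τ)⁻¹ := by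
  refine SemidirectProduct.ext ?_ rfl
  simp [io, th, autHom_apply]

theorem tf_th {n : ℤ} (τ : F) {G : Subgroup (G0 (rn ρ χ n))} (h : Tf G) :
    Tf (G.map (th ρ χ n τ).toMonoidHom) := by
  rintro _ ⟨g, hg, rfl⟩ e v A hA k
  have e' : g.right = 1 := (cj χ n τ).injective (e.trans (map_one _).symm)
  have k' := map_mem_WT (ρ τ).symm.toHom k
  have a : ∀ w, map (ρ τ).symm.toHom (aut (ρ τ) w) = w := (aut (ρ τ)).symm_apply_apply
  rw [map_mul, map_mul, map_inv] at k'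
  have := h g hg e' (map (ρ τ).symm.toHom v) _ ⟨hA.1.image _, by
    rintro _ ⟨s, hs, rfl⟩ _ ⟨t, ht, rfl⟩ ne
    exact (ρ τ).symm.toHom.map_adj (hA.2 hs ht fun e => ne (e ▸ rfl))⟩ (a g.left ▸ k')
  show aut (ρ τ) g.left = 1
  rw [this, map_one]

theorem noOdd {N : Subgroup (W Γ)} (h : Inv ρ N)
    (no : ∀ n : ℤ, Odd n → 1 ≤ n → ∀ (T : Type) [TopologicalSpace T] [MulAction (Gs χ h n) T],
      ¬GM 4 (Gs χ h n) T) : NoOdd (χ0 ρ χ) (Sd h) := fun n h1 h2 =>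
  ⟨Gs χ h n, _, (io ρ χ n).comp (Gs χ h n).subtype, (io_inj ρ χ n).comp Subtype.val_injective,
    fun e => ⟨by rintro ⟨g, rfl⟩; exact ⟨g.2, g.1.right.2⟩,
      fun ⟨a, b⟩ => ⟨⟨⟨e.left, ⟨e.right, b⟩⟩, a⟩, rfl⟩⟩, no n h1 h2⟩

/-- the invariant core of the kernel of the parity character -/
def Nc (C : Col (rn ρ χ 2)) : Subgroup (W Γ) where
  carrier := {w | ∀ f, C.χ (aut (ρ f) w) = 1}
  one_mem' := by simp
  mul_mem' := fun ha hb f => by rw [map_mul, map_mul, ha f, hb f, mul_one]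
  inv_mem' := fun ha f => by rw [map_inv, map_inv, ha f, inv_one]

theorem Nc_inv (C : Col (rn ρ χ 2)) : Inv ρ (Nc C) := fun f w hw f' => by
  have := hw (f' * f)
  rwa [← autHom_apply, map_mul] at this

theorem Nc_le (C : Col (rn ρ χ 2)) {w : W Γ} (h : w ∈ Nc C) : C.χ w = 1 := by
  have := h 1
  rwa [← autHom_apply, map_one] at this

theorem Gs_le (C : Col (rn ρ χ 2)) : Gs χ (Nc_inv C) 2 ≤ C.G := fun _ h => C.mem_G.2 (Nc_le C h)

theorem Nc_fi (C : Col (rn ρ χ 2)) {τ : F} (hτ : (χ τ).toAdd = 1) : (Nc C).FiniteIndex := by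
  have := C.fin
  have h1 := Subgroup.finiteIndex_ker C.χ
  have h2 := Subgroup.finiteIndex_ker (C.χ.comp (aut (ρ τ)).toMonoidHom)
  refine Subgroup.finiteIndex_of_le (H := C.χ.ker ⊓ (C.χ.comp (aut (ρ τ)).toMonoidHom).ker)
    fun w hw f => ?_
  rcases Int.even_or_odd (χ f).toAdd with h | h
  · exact (C.χ_aut ⟨f, h.two_dvd⟩ w).trans hw.1
  · have := C.χ_aut ⟨f * τ⁻¹, by
      rw [mem_Gn, map_mul, map_inv, toAdd_mul, toAdd_inv, hτ]
      exact (h.add_odd (by decide)).two_dvd⟩ (aut (ρ τ) w)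
    refine Eq.trans ?_ (this.trans hw.2)
    show _ = C.χ (autHom ρ (f * τ⁻¹) (autHom ρ τ w))
    rw [← MulAut.mul_apply, ← map_mul, inv_mul_cancel_right]
    rfl

section main
variable [Countable S] [Countable F] {T : Type} [TopologicalSpace T] [MulAction (Gn χ 2) T]
  (Φ : FillG (rn ρ χ 2) T) (c : Cmb (Gn χ 2) T) {τ : F} (hτ : (χ τ).toAdd = 1)
  {N : Subgroup (W Γ)} [N.FiniteIndex] (h : Inv ρ N)
  (no : ∀ n : ℤ, Odd n → 1 ≤ n → ∀ (T : Type) [TopologicalSpace T] [MulAction (Gs χ h n) T],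
    ¬GM 4 (Gs χ h n) T)
include Φ c hτ no

/-- **`S0361`** from a filling over `χ⁻¹(2ℤ)` and the non-existence theorem -/
theorem s61_con (tf : Tf (Gs χ h 2)) : S61 :=
  haveI := Φ.contractible c
  haveI := Gs_fi (χ := χ) h 2
  s61_of_no (χ := χ0 ρ χ) (τ := .inr τ) hτ (io_inj ρ χ 2) (io_rng ρ χ 2) (E₁ := Sd h) N.one_mem
    (gm_fill Φ c (Gs χ h 2) tf) (th ρ χ 2 τ) (io_th 2 τ) (noOdd h no)

/-- **`S0360`** from a filling over `χ⁻¹(2ℤ)`, the non-existence theorem, `Out G` finite and rigidity -/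
theorem s60_con (G : Subgroup (G0 (rn ρ χ 2))) [G.Normal] (le : Gs χ h 2 ≤ G) (tf : Tf G)
    (hy : Crest.GroupTheory.IsHyperbolicGroup (G0 (rn ρ χ 2)))
    (h2 : ∀ g, ∃ r : ℕ, g ^ 2 ^ r ∈ G) (fin : (MulAut.conj (G := G)).range.FiniteIndex)
    (rig : Subgroup.normalizer ((MulAut.conjNormal (H := G)).range : Set (MulAut G)) ≤
      (MulAut.conjNormal (H := G)).range) : S60 := by
  have := Φ.contractible c
  have := Gs_fi (χ := χ) h 2
  have : G.FiniteIndex := Subgroup.finiteIndex_of_le le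
  have : (G.map (th ρ χ 2 τ).toMonoidHom).FiniteIndex :=
    ⟨by rw [Subgroup.index_map_of_bijective (th ρ χ 2 τ).bijective]; exact Subgroup.FiniteIndex.index_ne_zero⟩
  exact s60_of_no (χ := χ0 ρ χ) (τ := .inr τ) hτ (io_inj ρ χ 2) (io_rng ρ χ 2) (E₁ := Sd h) N.one_mem
    (gm_fill Φ c (Gs χ h 2) (tf.mono le)) (th ρ χ 2 τ) (io_th 2 τ) (noOdd h no) G le
    (gm_fill Φ c G tf) (gm_fill Φ c _ (tf_th τ tf)) (Hyp.hyp_subgroup hy G) h2 fin rig

end main

end Crest.Agent.N233.Wu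

end
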