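import Crest.Agent.N233.Wu.Rig
import Crest.Agent.N233.Wu.Cc
import Crest.Agent.N233.Ae.Nu
import Crest.Agent.N233.Pc.In1
import Crest.Agent.N233.Pc.TriM
import Crest.Agent.N233.PS.Tr
import Crest.Agent.N233.Hi.Hy

/-!
# Row 233 (helper62): the concrete data, `S0360` and `S0361` from the remaining group theory
-/

set_option autoImplicit false
open Set

noncomputable section

namespace Crest.Agent.N233.Wu.I

open Crest.Agent.N255 Crest.Agent.N255.Uc Crest.Agent.N255.Ra Dv Pc Pc.In PS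

/-- the faces of the cover -/
abbrev X : Set In.St → Prop := Da.D.Gt.IsClique

theorem hX (A : Set In.St) : X A ↔ Da.D.Gt.IsClique A := Iff.rfl

theorem cx : Cx X := Hi.cxD Da.D hX

/-- the flag-no-square graph -/
abbrev Γ : SimpleGraph (PV X) := ps X

/-- the action of the free group -/
def ρ3 : F3 →* (Γ ≃g Γ) := psHom (MulAction.toPermHom F3 In.St) (Hi.face_smul Da.D hX)

theorem hρ (f : F3) (a : PV X) : car (ρ3 f a) = (f • ·) '' car a := car_psHom _ _ f a

theorem cnt_St : Countable In.St :=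
  (show Function.Surjective fun p : F3 × Pt.SY (Fin 3) (Fin 112) (Fin 16) => (⟨p.1, p.2⟩ : In.St) from
    fun s => ⟨(s.1, s.2), rfl⟩).countable

theorem cnt : Countable (PV X) :=
  haveI := cnt_St
  (show Function.Injective fun a : PV X => a.1 from fun _ _ => PV.ext).countable

theorem tm : TM := ⟨triB, triS 1, hB, hS 1⟩

theorem χτ : (In.χ (.of 0)).toAdd = 1 := χ_of 0

theorem fi2 : (Gn In.χ 2).FiniteIndex := Hi.fi_of_dvd In.χ (n := 2) (by decide) _ fun _ h => h

/-- the cover of the filling -/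
abbrev P (L : FL) : Ae.Pre X F2 fun f s => f.1 • s := pre tm L hX

theorem nul (L : FL) : Ae.Null (P L).X := null tm

/-- **the filling** -/
def fillI (L : FL) : FillG (rn ρ3 In.χ 2) (P L).X :=
  Fill.sub cx (Hi.sg _ _ F2) (Hi.sg_face Da.D hX F2) ((P L).fill (P L) (nul L) (nul L))

theorem hy : Crest.GroupTheory.IsHyperbolicGroup (G0 (rn ρ3 In.χ 2)) :=
  haveI := fi2
  Hi.hyp_res Da.D hX ρ3 hρ (Gn In.χ 2)

/-- the non-existence theorem for `N ⋊ χ⁻¹(nℤ)`, `n` odd -/
def No {N : Subgroup (W Γ)} (h : Inv ρ3 N) : Prop :=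
  ∀ n : ℤ, Odd n → 1 ≤ n → ∀ (T : Type) [TopologicalSpace T] [MulAction (Gs In.χ h n) T],
    ¬GM 4 (Gs In.χ h n) T

theorem s61_inst (L : FL) {N : Subgroup (W Γ)} [N.FiniteIndex] (h : Inv ρ3 N) (no : No h)
    (tf : Tf (Gs In.χ h 2)) : S61 :=
  haveI := cnt
  ((P L).cmb (nul L)).elim fun c => s61_con (fillI L) c χτ h no tf

theorem s60_inst (L : FL) {N : Subgroup (W Γ)} [N.FiniteIndex] (h : Inv ρ3 N) (no : No h)
    (G : Subgroup (G0 (rn ρ3 In.χ 2))) [G.Normal] (le : Gs In.χ h 2 ≤ G) (tf : Tf G)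
    (h2 : ∀ g, ∃ r : ℕ, g ^ 2 ^ r ∈ G) (fin : (MulAut.conj (G := G)).range.FiniteIndex)
    (rig : Subgroup.normalizer ((MulAut.conjNormal (H := G)).range : Set (MulAut G)) ≤
      (MulAut.conjNormal (H := G)).range) : S60 :=
  haveI := cnt
  ((P L).cmb (nul L)).elim fun c => s60_con (fillI L) c χτ h no G le tf hy h2 fin rig

end Crest.Agent.N233.Wu.I

end
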