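import Crest.Agent.N233.Wu.Syl

/-!
# Row 233 (helper62): the normaliser of `c(G₀)` in `Aut G` from the automorphisms of `G₀`
-/

set_option autoImplicit false

namespace Crest.Agent.N233.Wu

variable {G₀ : Type} [Group G₀] (G : Subgroup G₀) [G.Normal]

theorem cn_inj (h : ∀ u : G₀, (∀ g ∈ G, u * g = g * u) → u = 1) :
    Function.Injective (MulAut.conjNormal (H := G)) :=
  (injective_iff_map_eq_one _).2 fun u e => h u fun g hg => by
    have := congrArg (fun β : MulAut G => (β ⟨g, hg⟩ : G₀)) e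
    simpa [mul_inv_eq_iff_eq_mul] using this

/-- an automorphism of `G` which normalises `c(G₀)` extends to `G₀` -/
theorem exists_ext (inj : Function.Injective (MulAut.conjNormal (H := G))) {β : MulAut G}
    (hβ : β ∈ Subgroup.normalizer ((MulAut.conjNormal (H := G)).range : Set (MulAut G))) :
    ∃ b : G₀ ≃* G₀, ∀ g : G, b g = β g := by
  let c := MulAut.conjNormal (H := G)
  let e : G₀ ≃* G₀ := eqvOf (ι := (MulAut.conj β).toMonoidHom.comp c) (ι' := c)
    ((MulAut.conj β).injective.comp inj) inj (by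
      rw [MonoidHom.range_comp]; exact Subgroup.mem_normalizer_iff_map_conj_eq.1 hβ)
  have he : ∀ g, c (e g) = β * c g * β⁻¹ := eqvOf_spec _ _ _
  refine ⟨e, fun g => inj ?_⟩
  rw [show MulAut.conjNormal (e g) = _ from he g]
  ext x
  simp [c, MulAut.conjNormal_val]

/-- **rigidity**, reduced to automorphisms of `G₀` which preserve `G` -/
theorem rig_of (inj : Function.Injective (MulAut.conjNormal (H := G)))
    (h : ∀ b : G₀ ≃* G₀, (∀ g, b g ∈ G ↔ g ∈ G) → ∃ u : G₀, ∀ g ∈ G, b g = u * g * u⁻¹) :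
    Subgroup.normalizer ((MulAut.conjNormal (H := G)).range : Set (MulAut G)) ≤
      (MulAut.conjNormal (H := G)).range := fun β hβ => by
  obtain ⟨b, hb⟩ := exists_ext G inj hβ
  obtain ⟨u, hu⟩ := h b fun g => ⟨fun k => by
    obtain ⟨x, hx⟩ := β.surjective ⟨_, k⟩
    rw [← b.injective ((hb x).trans (congrArg Subtype.val hx))]
    exact x.2, fun k => by rw [hb ⟨g, k⟩]; exact (β _).2⟩
  exact ⟨u, MulEquiv.ext fun g => Subtype.ext ((hu g g.2).symm.trans (hb g))⟩

end Crest.Agent.N233.Wu
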