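import Crest.Agent.N233.Wu.Tw
import Crest.Agent.N233.Ae.Ext
import Crest.Agent.N233.Hyp.Sub
import Crest.Prelude.Def_ClassifyingComplex

/-!
# Row 233 (helper62): lifting homeomorphisms, descending equivariant maps, and `S0361` from the
non-existence of manifolds for the groups `Gn χ n`, `n` odd
-/

set_option autoImplicit false
open Set Filter Topology unitInterval

noncomputable section

namespace Crest.Agent.N233.Wu

open Crest.Agent.N255.Uc

section
variable {G G' T T' M M' : Type} [Group G] [Group G'] [TopologicalSpace T] [TopologicalSpace T']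
  [TopologicalSpace M] [TopologicalSpace M'] [MulAction G T] [MulAction G' T'] {p : T → M}
  {p' : T' → M'}

/-- an equivariant lift of a homeomorphism is a homeomorphism -/
theorem homeo_of_lift (hp : IsQuotientCoveringMap p G) (hp' : IsQuotientCoveringMap p' G')
    (α : G ≃* G') (h : M ≃ₜ M') {φ : T → T'} (c : Continuous φ) (l : ∀ x, p' (φ x) = h (p x))
    (e : ∀ (g : G) x, φ (g • x) = α g • φ x) : ∃ ψ : T ≃ₜ T', ⇑ψ = φ := by
  have := hp'.isCancelSMul
  have h1 : IsLocalHomeomorph φ := by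
    refine IsLocalHomeomorph.of_comp (g := p') ?_ hp'.isCoveringMap.isLocalHomeomorph c
    rw [show p' ∘ φ = h ∘ p from funext l]
    exact h.isLocalHomeomorph.comp hp.isCoveringMap.isLocalHomeomorph
  refine ⟨h1.toHomeomorphOfBijective ⟨fun x y k => ?_, fun z => ?_⟩, rfl⟩
  · obtain ⟨g, rfl⟩ := hp.apply_eq_iff_mem_orbit.1 (h.injective ((l x).symm.trans (k ▸ l y)))
    have k' : α g • φ y = φ y := (e g y).symm.trans k
    have : α g = 1 := isCancelSMul_iff_eq_one_of_smul_eq.mp ‹_› _ _ k'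
    rw [show g = 1 from α.injective (by rw [this, map_one])]
    exact one_smul _ _
  · obtain ⟨x, hx⟩ := hp.surjective (h.symm (p' z))
    obtain ⟨g, hg⟩ := hp'.apply_eq_iff_mem_orbit.1
      (show p' z = p' (φ x) by rw [l, hx, h.apply_symm_apply])
    exact ⟨α.symm g • x, by rw [e, α.apply_symm_apply]; exact hg⟩

/-- a map homotopic to a map covered by an `α`-equivariant map is covered by such a map -/
theorem lift_htpy (hp : IsQuotientCoveringMap p G) (hp' : IsQuotientCoveringMap p' G')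
    (α : G → G') {F : C(T, T')} (e : ∀ (g : G) x, F (g • x) = α g • F x) {f f' : C(M, M')}
    (l : ∀ x, p' (F x) = f (p x)) (H : f.Homotopic f') :
    ∃ φ : C(T, T'), (∀ x, p' (φ x) = f' (p x)) ∧ ∀ (g : G) x, φ (g • x) = α g • φ x := by
  obtain ⟨H⟩ := H
  have cov := hp'.isCoveringMap
  have := hp'.toContinuousConstSMul
  have cp := hp.continuous
  let K : C(I × T, M') := ⟨fun q => H (q.1, p q.2), by fun_prop⟩
  have K0 : ∀ x, K (0, x) = p' (F x) := fun x => (H.apply_zero _).trans (l x).symm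
  let L := cov.liftHomotopy K F K0
  have L1 : ∀ t x, p' (L (t, x)) = H (t, p x) := fun t x =>
    congrFun (cov.liftHomotopy_lifts K F K0) (t, x)
  have L0 : ∀ x, L (0, x) = F x := cov.liftHomotopy_zero K F K0
  refine ⟨⟨fun x => L (1, x), by fun_prop⟩, fun x => (L1 1 x).trans (H.apply_one _), fun g x => ?_⟩
  exact congrFun (cov.eq_of_comp_eq (A := I) (g₁ := fun t => L (t, g • x))
    (g₂ := fun t => α g • L (t, x)) (by fun_prop) (by fun_prop)
    (funext fun t => by
      show p' (L (t, g • x)) = p' (α g • L (t, x))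
      rw [hp'.map_smul, L1, L1, hp.map_smul]) 0 (by rw [L0, L0, e])) 1

/-- a homeomorphism homotopic to a map covered by an `α`-equivariant map lifts equivariantly -/
theorem lift_homeo (hp : IsQuotientCoveringMap p G) (hp' : IsQuotientCoveringMap p' G')
    (α : G ≃* G') {F : C(T, T')} (e : ∀ (g : G) x, F (g • x) = α g • F x) {f : C(M, M')}
    (l : ∀ x, p' (F x) = f (p x)) (h : M ≃ₜ M') (H : (h : C(M, M')).Homotopic f) :
    ∃ φ : T ≃ₜ T', (∀ x, p' (φ x) = h (p x)) ∧ ∀ (g : G) x, φ (g • x) = α g • φ x := by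
  obtain ⟨φ, h1, h2⟩ := lift_htpy hp hp' α e l H.symm
  obtain ⟨ψ, hψ⟩ := homeo_of_lift hp hp' α h φ.continuous h1 h2
  exact ⟨ψ, by rw [hψ]; exact h1, by rw [hψ]; exact h2⟩

/-- descending a family of maps -/
theorem desc (hp : IsQuotientCoveringMap p G) {P : Type} [TopologicalSpace P] {F : P × T → M'}
    (c : Continuous F) (e : ∀ t (g : G) x, F (t, g • x) = F (t, x)) :
    ∃ f : C(P × M, M'), ∀ t x, f (t, p x) = F (t, x) := by
  have k : ∀ t x, F (t, Function.surjInv hp.surjective (p x)) = F (t, x) := fun t x => by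
    obtain ⟨g, hg⟩ := hp.apply_eq_iff_mem_orbit.1 (Function.surjInv_eq hp.surjective (p x))
    rw [← e t g x]; exact congrArg (fun y => F (t, y)) hg.symm
  refine ⟨⟨fun q => F (q.1, Function.surjInv hp.surjective q.2), ?_⟩, k⟩
  rw [← (IsOpenQuotientMap.id.prodMap hp.isOpenQuotientMap).continuous_comp_iff]
  exact c.congr fun q => (k q.1 q.2).symm

theorem desc' (hp : IsQuotientCoveringMap p G) {F : T → M'} (c : Continuous F)
    (e : ∀ (g : G) x, F (g • x) = F x) : ∃ f : C(M, M'), ∀ x, f (p x) = F x := by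
  obtain ⟨f, hf⟩ := desc (P := Unit) hp (F := fun q => F q.2) (by fun_prop) fun _ => e
  exact ⟨⟨fun m => f ((), m), by fun_prop⟩, hf ()⟩

variable {d d' : ℕ}

theorem gm_lne (h : GM d G T) : Ae.LNE T := by
  obtain ⟨_⟩ := h.chart
  exact Ae.lne_euc d

theorem gm_map (h : GM d G T) (h' : GM d' G' T') [ContractibleSpace T'] (α : G →* G') :
    ∃ F : C(T, T'), ∀ (g : G) x, F (g • x) = α g • F x := by
  have := h.t2
  have := h.lc
  have := h.sc
  have := h.cont
  have := pd_of h.prp
  have := h'.cont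
  let _ : MulAction G T' := MulAction.compHom T' α
  have : ContinuousConstSMul G T' := ⟨fun g => continuous_const_smul (α g)⟩
  exact Ae.exists_map (gm_lne h') Ae.null_of_contractible h.free

theorem gm_htpy (h : GM d G T) [ContractibleSpace T] (hp : IsQuotientCoveringMap p G) {F : T → T}
    (c : Continuous F) (e : ∀ (g : G) x, F (g • x) = g • F x) {f : C(M, M)}
    (l : ∀ x, f (p x) = p (F x)) : f.Homotopic (.id M) := by
  have := h.t2
  have := h.lc
  have := h.sc
  have := h.cont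
  have := pd_of h.prp
  have cp := hp.continuous
  obtain ⟨H, h1, h2, h3⟩ := Ae.exists_htpy' (gm_lne h) Ae.null_of_contractible h.free c continuous_id
    e fun _ _ => rfl
  obtain ⟨K, hK⟩ := desc (P := I) hp (F := fun q => p (H (q.2, q.1))) (by fun_prop)
    fun t g x => by simp only [h1, hp.map_smul]
  refine ⟨⟨K, fun m => ?_, fun m => ?_⟩⟩
  · obtain ⟨x, rfl⟩ := hp.surjective m
    exact (hK 0 x).trans (by simp only [h2, l])
  · obtain ⟨x, rfl⟩ := hp.surjective m
    exact (hK 1 x).trans (by simp only [h3]; rfl)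

/-- isomorphic groups give homotopy equivalent quotients -/
theorem exists_he (h : GM d G T) (h' : GM d' G' T') [ContractibleSpace T] [ContractibleSpace T']
    (hp : IsQuotientCoveringMap p G) (hp' : IsQuotientCoveringMap p' G') (α : G ≃* G') :
    ∃ (f : ContinuousMap.HomotopyEquiv M M') (F : C(T, T')),
      (∀ (g : G) x, F (g • x) = α g • F x) ∧ ∀ x, p' (F x) = f.toFun (p x) := by
  obtain ⟨F, hF⟩ := gm_map h h' α.toMonoidHom
  obtain ⟨F', hF'⟩ := gm_map h' h α.symm.toMonoidHom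
  obtain ⟨f, hf⟩ := desc' hp (hp'.continuous.comp F.continuous)
    fun g x => by simp only [Function.comp, hF, hp'.map_smul]
  obtain ⟨f', hf'⟩ := desc' hp' (hp.continuous.comp F'.continuous)
    fun g x => by simp only [Function.comp, hF', hp.map_smul]
  refine ⟨⟨f, f', gm_htpy h hp (F'.continuous.comp F.continuous) (fun g x => ?_) fun x => ?_,
    gm_htpy h' hp' (F.continuous.comp F'.continuous) (fun g x => ?_) fun x => ?_⟩, F, hF,
    fun x => (hf x).symm⟩
  · simp [hF, hF']
  · simp [hf, hf']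
  · simp [hF, hF']
  · simp [hf, hf']

end

/-- the quotient manifold -/
theorem exists_quot {d : ℕ} {G T : Type} [Group G] [TopologicalSpace T] [MulAction G T]
    (h : GM d G T) : ∃ (M : Type) (_ : TopologicalSpace M)
      (_ : ChartedSpace (EuclideanSpace ℝ (Fin d)) M) (p : T → M), T2Space M ∧
      SecondCountableTopology M ∧ CompactSpace M ∧ ConnectedSpace M ∧ IsQuotientCoveringMap p G := by
  have := h.t2
  have := h.lc
  have := h.sc
  have := h.cont
  have := h.pc
  have := pd_of h.prp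
  have : IsCancelSMul G T := isCancelSMul_iff_eq_one_of_smul_eq.2 h.free
  obtain ⟨_⟩ := h.chart
  have hq := isQuotientCoveringMap_quotientMk_of_properlyDiscontinuousSMul (G := G) (E := T)
  refine ⟨MulAction.orbitRel.Quotient G T, inferInstance, inferInstance, _, inferInstance,
    ContinuousConstSMul.secondCountableTopology, ?_, hq.surjective.connectedSpace hq.continuous, hq⟩
  obtain ⟨K, hK, hk⟩ := h.cocpt
  refine ⟨(hK.image hq.continuous).of_isClosed_subset isClosed_univ fun m _ => ?_⟩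
  obtain ⟨x, rfl⟩ := hq.surjective m
  obtain ⟨g, hg⟩ := hk x
  exact ⟨_, hg, hq.map_smul g⟩

/-- the statement `S0361` -/
def S61 : Prop :=
  ∃ (M : Type) (_ : TopologicalSpace M) (_ : ChartedSpace (EuclideanSpace ℝ (Fin 4)) M),
    T2Space M ∧ SecondCountableTopology M ∧ CompactSpace M ∧ ConnectedSpace M ∧
    Crest.Topology.HasContractibleCover M ∧
    ∃ f : ContinuousMap.HomotopyEquiv M M,
      ∀ h : M ≃ₜ M, ¬ ContinuousMap.Homotopic (h : C(M, M)) f.toFun

/-- `S0361` from an automorphism which is not realised by a homeomorphism of the universal cover -/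
theorem s61_of_aut {G T : Type} [Group G] [TopologicalSpace T] [ContractibleSpace T] [MulAction G T]
    (h : GM 4 G T) (α : G ≃* G) (no : ∀ φ : T ≃ₜ T, ¬∀ (g : G) x, φ (g • x) = α g • φ x) : S61 := by
  obtain ⟨M, _, _, p, h1, h2, h3, h4, hp⟩ := exists_quot h
  obtain ⟨f, F, e, l⟩ := exists_he h h hp hp α
  refine ⟨M, _, ‹_›, h1, h2, h3, h4, ⟨T, _, p, ‹_›, hp.isCoveringMap, hp.surjective⟩, f,
    fun φ H => ?_⟩
  obtain ⟨ψ, -, hψ⟩ := lift_homeo hp hp _ e l φ H
  exact no ψ hψ

/-- **`S0361` from the black box**: `T` carries an action of `Gn χ m`, but no action of `Gn χ (m k + 1)`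
with the same action of the kernel, for infinitely many `k` -/
theorem s61_of' {G T : Type} [Group G] [TopologicalSpace T] [ContractibleSpace T]
    (χ : G →* Multiplicative ℤ) {g₀ : G} (h₀ : (χ g₀).toAdd = 1) {m : ℤ} (hm : 1 ≤ m)
    [MulAction (Gn χ m) T] (h : GM 4 (Gn χ m) T)
    (no : ∀ k : ℕ, ∃ k' : ℕ, k ≤ k' ∧ ∀ _ : MulAction (Gn χ (m * k' + 1)) T,
      GM 4 (Gn χ (m * k' + 1)) T → ¬∀ (g : Gn χ m) (g' : Gn χ (m * k' + 1)) (x : T),
        χ g = 1 → (g : G) = g' → g' • x = g • x) : S61 :=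
  s61_of_aut h (cj χ m g₀) fun ψ hψ => by
    obtain ⟨k, hk⟩ := wrap χ hm h h₀ ψ hψ
    obtain ⟨k', a, b⟩ := no k
    obtain ⟨i, c, e⟩ := hk k' a
    exact b i c e

/-- the black box in its plain form: no `Gn χ n`, `n` odd, acts -/
theorem s61_of {G T : Type} [Group G] [TopologicalSpace T] [ContractibleSpace T]
    (χ : G →* Multiplicative ℤ) {g₀ : G} (h₀ : (χ g₀).toAdd = 1) [MulAction (Gn χ 2) T]
    (h : GM 4 (Gn χ 2) T)
    (no : ∀ n : ℤ, Odd n → 1 ≤ n → ∀ _ : MulAction (Gn χ n) T, ¬GM 4 (Gn χ n) T) : S61 :=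
  s61_of' χ h₀ (by norm_num) h fun k =>
    ⟨k, le_rfl, fun i c _ => no _ ⟨k, rfl⟩ (by omega) i c⟩

/-- a homeomorphism of the quotients lifts to a homeomorphism which is equivariant for an isomorphism -/
theorem lift_any {G G' T T' M M' : Type} [Group G] [Group G'] [TopologicalSpace T]
    [TopologicalSpace T'] [TopologicalSpace M] [TopologicalSpace M'] [MulAction G T]
    [MulAction G' T'] {p : T → M} {p' : T' → M'} [SimplyConnectedSpace T]
    [LocallyPathConnectedSpace T] [SimplyConnectedSpace T'] [LocallyPathConnectedSpace T']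
    (hp : IsQuotientCoveringMap p G) (hp' : IsQuotientCoveringMap p' G') (h : M ≃ₜ M') :
    ∃ (φ : T ≃ₜ T') (α : G ≃* G'), (∀ x, p' (φ x) = h (p x)) ∧
      ∀ (g : G) x, φ (g • x) = α g • φ x := by
  have := hp.isCancelSMul
  have := hp'.isCancelSMul
  have := hp.toContinuousConstSMul
  have := hp'.toContinuousConstSMul
  obtain ⟨x₀⟩ : Nonempty T := inferInstance
  obtain ⟨y₀, hy⟩ := hp'.surjective (h (p x₀))
  obtain ⟨φ, ⟨φ0, φ1⟩, -⟩ := hp'.isCoveringMap.existsUnique_continuousMap_lifts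
    ⟨fun x => h (p x), h.continuous.comp hp.continuous⟩ x₀ y₀ hy
  obtain ⟨ψ, ⟨ψ0, ψ1⟩, -⟩ := hp.isCoveringMap.existsUnique_continuousMap_lifts
    ⟨fun y => h.symm (p' y), h.symm.continuous.comp hp'.continuous⟩ y₀ x₀ (by simp [hy])
  have l : ∀ x, p' (φ x) = h (p x) := congrFun φ1
  have l' : ∀ y, p (ψ y) = h.symm (p' y) := congrFun ψ1
  have k : ∀ x, ψ (φ x) = x := congrFun (hp.isCoveringMap.eq_of_comp_eq (g₁ := fun x => ψ (φ x))
    (g₂ := id) (by fun_prop) continuous_id (funext fun x => by simp [l, l']) x₀ (by simp [φ0, ψ0]))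
  have k' : ∀ y, φ (ψ y) = y := congrFun (hp'.isCoveringMap.eq_of_comp_eq (g₁ := fun x => φ (ψ x))
    (g₂ := id) (by fun_prop) continuous_id (funext fun x => by simp [l, l']) y₀ (by simp [φ0, ψ0]))
  have ex : ∀ g : G, ∃ g' : G', ∀ x, φ (g • x) = g' • φ x := fun g => by
    obtain ⟨g', hg⟩ := hp'.apply_eq_iff_mem_orbit.1
      (show p' (φ (g • x₀)) = p' (φ x₀) by rw [l, l, hp.map_smul])
    exact ⟨g', congrFun (hp'.isCoveringMap.eq_of_comp_eq (g₁ := fun x => φ (g • x))
      (g₂ := fun x => g' • φ x) (by fun_prop) (by fun_prop)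
      (funext fun x => by simp only [Function.comp, l, hp.map_smul, hp'.map_smul]) x₀ hg.symm)⟩
  have ex' : ∀ g' : G', ∃ g : G, ∀ y, ψ (g' • y) = g • ψ y := fun g' => by
    obtain ⟨g, hg⟩ := hp.apply_eq_iff_mem_orbit.1
      (show p (ψ (g' • y₀)) = p (ψ y₀) by rw [l', l', hp'.map_smul])
    exact ⟨g, congrFun (hp.isCoveringMap.eq_of_comp_eq (g₁ := fun x => ψ (g' • x))
      (g₂ := fun x => g • ψ x) (by fun_prop) (by fun_prop)
      (funext fun x => by simp only [Function.comp, l', hp.map_smul, hp'.map_smul]) y₀ hg.symm)⟩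
  choose a ha using ex
  choose b hb using ex'
  refine ⟨⟨⟨φ, ψ, k, k'⟩, φ.continuous, ψ.continuous⟩, ⟨⟨a, b, fun g => ?_, fun g => ?_⟩,
    fun g g' => ?_⟩, l, ha⟩
  · exact IsCancelSMul.right_cancel _ _ x₀ (by rw [← k (g • x₀), ha, hb, k])
  · exact IsCancelSMul.right_cancel _ _ y₀ (by rw [← k' (g • y₀), hb, ha, k'])
  · exact IsCancelSMul.right_cancel _ _ (φ x₀) (by
      show a (g * g') • φ x₀ = (a g * a g') • φ x₀
      rw [← ha, mul_smul, mul_smul, ha, ha])

/-- the statement `S0360` -/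
def S60 : Prop :=
  ∃ (M N : Type) (_ : TopologicalSpace M) (_ : TopologicalSpace N)
    (_ : ChartedSpace (EuclideanSpace ℝ (Fin 4)) M) (_ : ChartedSpace (EuclideanSpace ℝ (Fin 4)) N),
    T2Space M ∧ SecondCountableTopology M ∧ CompactSpace M ∧ ConnectedSpace M ∧
    T2Space N ∧ SecondCountableTopology N ∧ CompactSpace N ∧ ConnectedSpace N ∧
    Crest.Topology.HasContractibleCover M ∧ Crest.Topology.HasContractibleCover N ∧
    Nonempty (ContinuousMap.HomotopyEquiv M N) ∧ IsEmpty (M ≃ₜ N) ∧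
    ∀ x : M, Crest.GroupTheory.IsHyperbolicGroup (FundamentalGroup M x)

/-- **`S0360` from the universal covers**: two contractible `G`-manifolds without a homeomorphism which is
equivariant up to an automorphism -/
theorem s60_of {G T T' : Type} [Group G] [TopologicalSpace T] [ContractibleSpace T] [MulAction G T]
    [TopologicalSpace T'] [ContractibleSpace T'] [MulAction G T'] (h : GM 4 G T) (h' : GM 4 G T')
    (hy : Crest.GroupTheory.IsHyperbolicGroup G)
    (no : ∀ (φ : T ≃ₜ T') (α : G ≃* G), ¬∀ (g : G) x, φ (g • x) = α g • φ x) : S60 := by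
  obtain ⟨M, _, _, p, h1, h2, h3, h4, hp⟩ := exists_quot h
  obtain ⟨N, _, _, p', h1', h2', h3', h4', hp'⟩ := exists_quot h'
  obtain ⟨f, -⟩ := exists_he h h' hp hp' (MulEquiv.refl G)
  obtain ⟨_⟩ := h.chart
  obtain ⟨_⟩ := h'.chart
  have := ChartedSpace.locallyPathConnectedSpace (EuclideanSpace ℝ (Fin 4)) T
  have := ChartedSpace.locallyPathConnectedSpace (EuclideanSpace ℝ (Fin 4)) T'
  refine ⟨M, N, _, _, ‹_›, ‹_›, h1, h2, h3, h4, h1', h2', h3', h4',
    ⟨T, _, p, ‹_›, hp.isCoveringMap, hp.surjective⟩,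
    ⟨T', _, p', ‹_›, hp'.isCoveringMap, hp'.surjective⟩, ⟨f⟩, ⟨fun φ => ?_⟩, fun x => ?_⟩
  · obtain ⟨ψ, α, -, e⟩ := lift_any hp hp' φ
    exact no ψ α e
  · obtain ⟨y, rfl⟩ := hp.surjective x
    exact Hyp.hyp_of_mulEquiv hy
      ((hp.fundamentalGroupEquiv ⟨y, rfl⟩).trans (MulEquiv.inv' G).symm)

end Crest.Agent.N233.Wu

end
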