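import Crest.Agent.N233.Wu.Lift

/-!
# Row 233 (helper62): mixed manifolds, the interface of the chain construction
-/

set_option autoImplicit false
open Set Filter Topology

noncomputable section

namespace Crest.Agent.N233.Wu

open Crest.Agent.N255.Uc Crest.Agent.N255.Tp

/-- one end (`s = 1` right, `s = -1` left) of `Y` is the same end of `X`; heights are coarse -/
structure Hf {G : Type} [Group G] (χ : G →* Multiplicative ℤ) (s : ℝ) (X Y : Type)
    [TopologicalSpace X] [TopologicalSpace Y] [MulAction G X] [MulAction χ.ker Y] (d : Y → ℝ)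
    (C : ℝ) where
  e : OpenPartialHomeomorph X Y
  dX : X → ℝ
  loc : ∀ x, ∀ᶠ x' in 𝓝 x, |dX x' - dX x| ≤ C
  sm : ∀ (g : G) x, |dX (g • x) - (χ g).toAdd - dX x| ≤ C
  src : ∀ x, C < s * dX x → x ∈ e.source
  tgt : ∀ y, C < s * d y → y ∈ e.target
  cmp : ∀ x ∈ e.source, |d (e x) - dX x| ≤ C
  eqv : ∀ (h : χ.ker) x, x ∈ e.source → (h : G) • x ∈ e.source → e ((h : G) • x) = h • e x

/-- a contractible `ker χ`-manifold whose right end is that of `M` and whose left end is that of `N` -/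
structure Mx {G : Type} [Group G] (χ : G →* Multiplicative ℤ) (M N Y : Type) [TopologicalSpace M]
    [TopologicalSpace N] [TopologicalSpace Y] [MulAction G M] [MulAction G N]
    [MulAction χ.ker Y] where
  t2 : T2Space Y
  chart : Nonempty (ChartedSpace (EE 4) Y)
  sc : SecondCountableTopology Y
  ctr : ContractibleSpace Y
  cont : ContinuousConstSMul χ.ker Y
  free : ∀ (h : χ.ker) (y : Y), h • y = y → h = 1
  prp : ∀ A B : Set Y, IsCompact A → IsCompact B → {h : χ.ker | ∃ y ∈ A, h • y ∈ B}.Finite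
  d : Y → ℝ
  C : ℝ
  loc : ∀ y, ∀ᶠ y' in 𝓝 y, |d y' - d y| ≤ C
  sm : ∀ (h : χ.ker) y, |d (h • y) - d y| ≤ C
  band : ∀ b : ℝ, ∃ K : Set Y, IsCompact K ∧ ∀ y, |d y| ≤ b → ∃ h : χ.ker, h • y ∈ K
  r : Hf χ 1 M Y d C
  l : Hf χ (-1) N Y d C

/-- the conclusion of the chain construction: a cocompact manifold which contains a wide standard block -/
def Chn {G : Type} [Group G] (χ : G →* Multiplicative ℤ) (Y : Type) [TopologicalSpace Y]
    [MulAction χ.ker Y] (d : Y → ℝ) (w : ℝ) : Prop :=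
  ∃ (m : ℤ) (Z : Type) (_ : TopologicalSpace Z) (_ : MulAction (Gn χ m) Z) (U : Set Y) (i : Y → Z),
    w < m ∧ (∃ g, (χ g).toAdd = m) ∧ GM 4 (Gn χ m) Z ∧ ContractibleSpace Z ∧ IsOpen U ∧
    (∀ y, |d y| ≤ w → y ∈ U) ∧ (∀ (h : χ.ker), ∀ y ∈ U, h • y ∈ U) ∧
    IsOpenEmbedding (U.restrict i) ∧
    ∀ (h : χ.ker) (g : Gn χ m), (h : G) = g → ∀ y ∈ U, i (h • y) = g • i y

/-- the chain theorem -/
def ChainS : Prop :=
  ∀ (G : Type) [Group G] (χ : G →* Multiplicative ℤ) (M N Y : Type) [TopologicalSpace M]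
    [TopologicalSpace N] [TopologicalSpace Y] [MulAction G M] [MulAction G N] [MulAction χ.ker Y]
    [ContractibleSpace M], GM 4 G M → GM 4 G N → ∀ (X : Mx χ M N Y) (h : M ≃ₜ N) (α : MulAut G),
    (∀ (g : G) x, h (g • x) = α g • h x) → (∀ g, χ (α g) = χ g) →
    (∃ n : ℕ, 0 < n ∧ ∃ g₁ : G, ∀ g, (α ^ n) g = g₁ * g * g₁⁻¹) → (∃ g, χ g ≠ 1) →
    ∀ w : ℝ, Chn χ Y X.d w

end Crest.Agent.N233.Wu

end
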