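import Crest.Agent.N233.Wu.Lift

/-!
# Row 233 (helper62): the Sylow argument of note 514 and the wrap-up for `G₁`
-/

set_option autoImplicit false
open Set Filter Topology

noncomputable section

namespace Crest.Agent.N233.Wu

open Crest.Agent.N255.Uc

theorem syl_fin {Q : Type} [Group Q] [Finite Q] {p : ℕ} [Fact p.Prime] {P S : Subgroup Q}
    (hP : IsPGroup p P) (hN : Subgroup.normalizer (P : Set Q) ≤ P) (hS : P ≤ S) {a : Q}
    (ha : ∀ g ∈ P, a * g * a⁻¹ ∈ S) : a ∈ S := by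
  obtain ⟨R, hR⟩ := hP.exists_le_sylow
  have hn := R.2.isNilpotent
  have e : P.subgroupOf R = ⊤ :=
    normalizerCondition_iff_only_full_group_self_normalizing.1 Group.normalizerCondition_of_isNilpotent _
      (by rw [← Subgroup.subgroupOf_normalizer_eq hR, le_antisymm hN Subgroup.le_normalizer])
  have e' : (R : Subgroup Q) = P := le_antisymm (Subgroup.subgroupOf_eq_top.1 e) hR
  have h1 : (R : Subgroup Q) ≤ S := e' ▸ hS
  have h2 : ((a • R : Sylow p Q) : Subgroup Q) ≤ S := by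
    rintro _ ⟨g, hg, rfl⟩
    exact ha g (e' ▸ hg)
  obtain ⟨σ, hσ⟩ := MulAction.exists_smul_eq S ((a • R).subtype h2) (R.subtype h1)
  simp_rw [Sylow.smul_subtype, Subgroup.smul_def, smul_smul] at hσ
  have h3 := Sylow.smul_eq_iff_mem_normalizer.1 (Sylow.subtype_injective hσ)
  have h4 : (σ : Q) * a ∈ S := hS (hN (by rw [← e']; exact h3))
  exact (S.mul_mem_cancel_left σ.2).1 h4

/-- `I ≤ P ≤ S`, `P / I` a self-normalising `p`-group, `a P a⁻¹ ≤ S`: then `a ∈ S` -/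
theorem syl {A : Type} [Group A] {p : ℕ} [Fact p.Prime] {I P S : Subgroup A} [I.Normal]
    [I.FiniteIndex] (hI : I ≤ P) (hP : ∀ g ∈ P, ∃ r : ℕ, g ^ p ^ r ∈ I)
    (hN : Subgroup.normalizer (P : Set A) ≤ P) (hS : P ≤ S) {a : A}
    (ha : ∀ g ∈ P, a * g * a⁻¹ ∈ S) : a ∈ S := by
  have k : ∀ B : Subgroup A, I ≤ B → (B.map (QuotientGroup.mk' I)).comap (QuotientGroup.mk' I) = B :=
    fun B h => Subgroup.comap_map_eq_self (by rwa [QuotientGroup.ker_mk'])
  rw [← k S (hI.trans hS)]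
  refine syl_fin (p := p) (P := P.map (QuotientGroup.mk' I)) ?_ (fun q hq => ?_)
    (Subgroup.map_mono hS) ?_
  · rintro ⟨_, g, hg, rfl⟩
    obtain ⟨r, hr⟩ := hP g hg
    exact ⟨r, Subtype.ext (by
      show (QuotientGroup.mk' I g) ^ p ^ r = 1
      rw [← map_pow]; exact (QuotientGroup.eq_one_iff _).2 hr)⟩
  · obtain ⟨g, rfl⟩ := QuotientGroup.mk'_surjective I q
    have := Subgroup.le_normalizer_comap (H := P.map (QuotientGroup.mk' I)) (QuotientGroup.mk' I) hq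
    rw [k P hI] at this
    exact ⟨g, hN this, rfl⟩
  · rintro _ ⟨g, hg, rfl⟩
    exact ⟨_, ha g hg, by simp⟩

section
variable {G₀ T : Type} [Group G₀] [TopologicalSpace T] [MulAction G₀ T]

/-- the automorphisms which are realised by homeomorphisms of the twisted action -/
def St (G : Subgroup G₀) (θ : G₀ →* G₀) (T : Type) [TopologicalSpace T] [MulAction G₀ T] :
    Subgroup (MulAut G) where
  carrier := {β | ∃ k : T ≃ₜ T, ∀ (g : G) x, k (θ g • x) = θ (β g) • k x}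
  one_mem' := ⟨.refl T, fun _ _ => rfl⟩
  mul_mem' := fun ⟨k, hk⟩ ⟨k', hk'⟩ => ⟨k'.trans k, fun g x => by simp [hk, hk']⟩
  inv_mem' := fun {β} ⟨k, hk⟩ => ⟨k.symm, fun g x => k.injective (by rw [hk]; simp)⟩

/-- **Sylow step**: a homeomorphism which is equivariant up to some automorphism can be corrected -/
theorem syl_step [ContinuousConstSMul G₀ T] (G : Subgroup G₀) [G.Normal]
    (h2 : ∀ g : G₀, ∃ r : ℕ, g ^ 2 ^ r ∈ G) (fin : (MulAut.conj (G := G)).range.FiniteIndex)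
    (rig : Subgroup.normalizer ((MulAut.conjNormal (H := G)).range : Set (MulAut G)) ≤
      (MulAut.conjNormal (H := G)).range)
    (θ : G₀ →* G₀) (φ : T ≃ₜ T) (α : G ≃* G) (hφ : ∀ (g : G) x, φ ((g : G₀) • x) = θ (α g) • φ x) :
    ∃ k : T ≃ₜ T, ∀ (g : G) x, k ((g : G₀) • x) = θ g • k x := by
  have : (MulAut.conj (G := G)).range.Normal := ⟨by
    rintro _ ⟨g, rfl⟩ β
    exact ⟨β g, by ext x; simp⟩⟩
  have hc : ∀ g : G, MulAut.conjNormal (H := G) (g : G₀) = MulAut.conj g := fun g => by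
    ext x; simp
  have : Fact (Nat.Prime 2) := ⟨Nat.prime_two⟩
  obtain ⟨k, hk⟩ : (α : MulAut G) ∈ St G θ T := by
    refine syl (p := 2) (I := (MulAut.conj (G := G)).range) (P := (MulAut.conjNormal (H := G)).range)
      ?_ ?_ rig ?_ ?_
    · rintro _ ⟨g, rfl⟩
      exact ⟨g, hc g⟩
    · rintro _ ⟨g, rfl⟩
      obtain ⟨r, hr⟩ := h2 g
      exact ⟨r, ⟨_, hr⟩, by rw [← hc, ← map_pow]⟩
    · rintro _ ⟨g, rfl⟩
      exact ⟨Homeomorph.smul (θ g), fun a x => by simp [← mul_smul]⟩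
    · rintro _ ⟨g, rfl⟩
      refine ⟨φ.symm.trans ((Homeomorph.smul g).trans φ), fun a x => ?_⟩
      obtain ⟨a, rfl⟩ := α.surjective a
      obtain ⟨x, rfl⟩ := φ.surjective x
      have e := hφ (MulAut.conjNormal g a) (g • x)
      simp only [Homeomorph.trans_apply, ← hφ, Homeomorph.symm_apply_apply, Homeomorph.smul_apply,
        MulAut.mul_apply, MulAut.inv_apply, MulEquiv.symm_apply_apply]
      simp [← mul_smul]
  exact ⟨φ.trans k.symm, fun g x => k.injective (by simp [hk, hφ])⟩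

end

section
variable {d : ℕ} {G G' T : Type} [Group G] [Group G'] [TopologicalSpace T]

/-- transport of the action along an isomorphism -/
theorem gm_congr [MulAction G T] (h : GM d G T) (e : G' ≃* G) :
    @GM d G' T _ _ (MulAction.compHom T e.toMonoidHom) := by
  let _ := MulAction.compHom T e.toMonoidHom
  have := h.cont
  obtain ⟨K, hK, hk⟩ := h.cocpt
  refine gm_of_gm h (fun g => continuous_const_smul (e g))
    (fun g x k => e.injective ((h.free _ x k).trans (map_one e).symm))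
    (fun A B hA hB => (h.prp A B hA hB).preimage (f := e) e.injective.injOn) ⟨K, hK, fun x => ?_⟩
  obtain ⟨g, hg⟩ := hk x
  exact ⟨e.symm g, by rw [← e.apply_symm_apply g] at hg; exact hg⟩

/-- two injective homomorphisms with the same range -/
def eqvOf {E : Type} [Group E] {ι : G →* E} {ι' : G' →* E} (h : Function.Injective ι)
    (h' : Function.Injective ι') (e : ι.range = ι'.range) : G ≃* G' :=
  ((MonoidHom.ofInjective h).trans (MulEquiv.subgroupCongr e)).trans (MonoidHom.ofInjective h').symm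

theorem eqvOf_spec {E : Type} [Group E] {ι : G →* E} {ι' : G' →* E} (h : Function.Injective ι)
    (h' : Function.Injective ι') (e : ι.range = ι'.range) (g : G) : ι' (eqvOf h h' e g) = ι g :=
  MonoidHom.apply_ofInjective_symm h' _

end

/-- no closed aspherical manifold for the groups `E₁ ∩ χ⁻¹(nℤ)`, `n` odd, in whatever incarnation -/
def NoOdd {E : Type} [Group E] (χ : E →* Multiplicative ℤ) (E₁ : Subgroup E) : Prop :=
  ∀ n : ℤ, Odd n → 1 ≤ n → ∃ (G' : Type) (_ : Group G') (ι' : G' →* E), Function.Injective ι' ∧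
    (∀ e, e ∈ ι'.range ↔ e ∈ E₁ ∧ n ∣ (χ e).toAdd) ∧
    ∀ (T : Type) [TopologicalSpace T] [MulAction G' T], ¬GM 4 G' T

section
variable {E G₀ T : Type} [Group E] [Group G₀] [TopologicalSpace T] [MulAction G₀ T]
  {χ : E →* Multiplicative ℤ} {τ : E} {ι : G₀ →* E} {E₁ : Subgroup E} {θ : G₀ →* G₀}

/-- **KEY**: the conjugation by `τ` on `G₁ = ι⁻¹ E₁` is not realised by a homeomorphism -/
theorem key (hτ : (χ τ).toAdd = 1) (inj : Function.Injective ι)
    (rng : ∀ e, e ∈ ι.range ↔ 2 ∣ (χ e).toAdd) (h₁ : τ ∈ E₁) (h : GM 4 (E₁.comap ι) T)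
    (hθ : ∀ g, ι (θ g) = τ * ι g * τ⁻¹) (no : NoOdd χ E₁) (k : T ≃ₜ T) :
    ¬∀ g : G₀, ι g ∈ E₁ → ∀ x, k (g • x) = θ g • k x := fun hk => by
  let χ₁ : E₁ →* Multiplicative ℤ := χ.comp E₁.subtype
  have i1 : ∀ n, Function.Injective (E₁.subtype.comp (Gn χ₁ n).subtype) := fun n =>
    Subtype.val_injective.comp Subtype.val_injective
  have r1 : ∀ n e, e ∈ (E₁.subtype.comp (Gn χ₁ n).subtype).range ↔ e ∈ E₁ ∧ n ∣ (χ e).toAdd :=
    fun n e => ⟨by rintro ⟨g, rfl⟩; exact ⟨g.1.2, g.2⟩, fun ⟨a, b⟩ => ⟨⟨⟨e, a⟩, b⟩, rfl⟩⟩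
  have i2 : Function.Injective (ι.comp (E₁.comap ι).subtype) := inj.comp Subtype.val_injective
  have r2 : (E₁.subtype.comp (Gn χ₁ 2).subtype).range = (ι.comp (E₁.comap ι).subtype).range := by
    ext e
    rw [r1]
    exact ⟨fun ⟨a, b⟩ => by obtain ⟨g, rfl⟩ := (rng e).2 b; exact ⟨⟨g, a⟩, rfl⟩, by
      rintro ⟨g, rfl⟩; exact ⟨g.2, (rng _).1 ⟨_, rfl⟩⟩⟩
  let ε := eqvOf (i1 2) i2 r2
  have hε : ∀ g, ι (ε g) = (g : E₁) := eqvOf_spec (i1 2) i2 r2
  let _ := MulAction.compHom T ε.toMonoidHom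
  obtain ⟨m, hm⟩ := wrap χ₁ (m := 2) (by norm_num) (gm_congr h ε) (g₀ := ⟨τ, h₁⟩) hτ k fun g x => by
    show k ((ε g : G₀) • x) = (ε (cj χ₁ 2 ⟨τ, h₁⟩ g) : G₀) • k x
    rw [hk _ (ε g).2, show θ (ε g) = ε (cj χ₁ 2 ⟨τ, h₁⟩ g) from inj (by rw [hθ, hε, hε]; rfl)]
  obtain ⟨_, hg, -⟩ := hm m le_rfl
  obtain ⟨G', _, ι', a, b, c⟩ := no (2 * m + 1) ⟨m, rfl⟩ (by omega)
  exact @c T _ (_) (gm_congr hg (eqvOf a (i1 _) (by ext e; rw [b, r1])))

/-- `S0361` from the non-existence theorem -/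
theorem s61_of_no [ContractibleSpace T] (hτ : (χ τ).toAdd = 1) (inj : Function.Injective ι)
    (rng : ∀ e, e ∈ ι.range ↔ 2 ∣ (χ e).toAdd) (h₁ : τ ∈ E₁) (h : GM 4 (E₁.comap ι) T)
    (θ : G₀ ≃* G₀) (hθ : ∀ g, ι (θ g) = τ * ι g * τ⁻¹) (no : NoOdd χ E₁) : S61 := by
  have m : ∀ g, ι (θ g) ∈ E₁ ↔ ι g ∈ E₁ := fun g => by
    rw [hθ, E₁.mul_mem_cancel_right (E₁.inv_mem h₁), E₁.mul_mem_cancel_left h₁]
  let α : E₁.comap ι ≃* E₁.comap ι :=
    { toFun := fun g => ⟨θ g, (m g).2 g.2⟩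
      invFun := fun g => ⟨θ.symm g, (m _).1 (by rw [θ.apply_symm_apply]; exact g.2)⟩
      left_inv := fun g => Subtype.ext (θ.symm_apply_apply _)
      right_inv := fun g => Subtype.ext (θ.apply_symm_apply _)
      map_mul' := fun a b => Subtype.ext (map_mul θ _ _) }
  exact s61_of_aut h α fun k hk =>
    key (θ := θ.toMonoidHom) hτ inj rng h₁ h hθ no k fun g hg x => hk ⟨g, hg⟩ x

/-- the same space with the twisted action -/
def Twi (T : Type) : Type := T

/-- `S0360` from the non-existence theorem, finiteness of `Out G` and rigidity -/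
theorem s60_of_no [ContractibleSpace T] [ContinuousConstSMul G₀ T] (hτ : (χ τ).toAdd = 1)
    (inj : Function.Injective ι) (rng : ∀ e, e ∈ ι.range ↔ 2 ∣ (χ e).toAdd) (h₁ : τ ∈ E₁)
    (h : GM 4 (E₁.comap ι) T) (θ : G₀ ≃* G₀) (hθ : ∀ g, ι (θ g) = τ * ι g * τ⁻¹) (no : NoOdd χ E₁)
    (G : Subgroup G₀) [G.Normal] (hle : E₁.comap ι ≤ G) (hG : GM 4 G T)
    (hG' : GM 4 (G.map θ.toMonoidHom) T) (hy : Crest.GroupTheory.IsHyperbolicGroup G)
    (h2 : ∀ g : G₀, ∃ r : ℕ, g ^ 2 ^ r ∈ G) (fin : (MulAut.conj (G := G)).range.FiniteIndex)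
    (rig : Subgroup.normalizer ((MulAut.conjNormal (H := G)).range : Set (MulAut G)) ≤
      (MulAut.conjNormal (H := G)).range) : S60 := by
  let _ : TopologicalSpace (Twi T) := ‹TopologicalSpace T›
  have : ContractibleSpace (Twi T) := ‹ContractibleSpace T›
  let _ : MulAction G (Twi T) := MulAction.compHom T (θ.subgroupMap G).toMonoidHom
  refine s60_of (T' := Twi T) hG (gm_congr hG' (θ.subgroupMap G)) hy fun φ α hφ => ?_
  obtain ⟨k, hk⟩ := syl_step G h2 fin rig θ.toMonoidHom (T := T) φ α hφ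
  exact key (θ := θ.toMonoidHom) hτ inj rng h₁ h hθ no k fun g hg x => hk ⟨g, hle hg⟩ x

end

end Crest.Agent.N233.Wu

end
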